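import Vale.Agent.P235.K5.H749.V8

/-!
# The cross lemma (helper749, after helper531)

Three disjoint connected sets `N 0, N 1, N 2`, all touching two disjoint connected sets `M 0, M 1`,
off a set `B`; two roots in `N 0`, one in `N 1` and one in `N 2`. Either two disjoint connected sets
join the roots crosswise, or a set containing `M 0 ∪ M 1` is separated by three vertices and `B`.
-/

set_option autoImplicit false

namespace Vale.Agent.P235.XC.H749

open SimpleGraph
open Vale.Agent.P235.K5.H521 (Touch)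
open Vale.Agent.P235.K5.H707 (Cn)
open Vale.Agent.P235.K5.H749

variable {V : Type} {G : SimpleGraph V}

/-- the contacts -/
def R5 : Fin 3 ⊕ Fin 2 → Fin 3 ⊕ Fin 2 → Prop
  | Sum.inl _, Sum.inr _ => True
  | Sum.inr _, Sum.inl _ => True
  | Sum.inl _, Sum.inl _ => False
  | Sum.inr _, Sum.inr _ => False

theorem r5_symm : ∀ a b, R5 a b → R5 b a := by
  rintro (a | a) (b | b) h
  · exact h
  · trivial
  · trivial
  · exact h

theorem r5_irr : ∀ a, ¬ R5 a a := by
  rintro (a | a) h
  · exact h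
  · exact h

/-- the part of the root `k` -/
def w4 : Fin 4 → Fin 3 := ![0, 0, 1, 2]

/-- a configuration -/
structure Cfg (G : SimpleGraph V) (B : Set V) (M : Fin 2 → Set V) (x : Fin 4 → V)
    (f : V → Option (Fin 3 ⊕ Fin 2)) : Prop where
  md : Md G R5 f
  off : ∀ v ∈ B, f v = none
  rt : ∀ k, f (x k) = some (Sum.inl (w4 k))
  sub : ∀ j, M j ⊆ P f (Sum.inr j)

/-- the weight -/
def w5 : Option (Fin 3 ⊕ Fin 2) → ℕ
  | none => 1
  | some (Sum.inl _) => 2
  | some (Sum.inr _) => 0

theorem Cfg.upd [DecidableEq V] {B : Set V} {M : Fin 2 → Set V} {x : Fin 4 → V}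
    {f : V → Option (Fin 3 ⊕ Fin 2)} (h : Cfg G B M x f) {v : V}
    {c : Option (Fin 3 ⊕ Fin 2)} (hv : v ∉ B) (hx : ∀ k, x k ≠ v)
    (hM : ∀ j, v ∉ P f (Sum.inr j)) (hmd : Md G R5 (Function.update f v c)) :
    Cfg G B M x (Function.update f v c) := by
  refine ⟨hmd, fun u hu => ?_, fun k => ?_, fun j u hu => ?_⟩
  · have h2 : u ≠ v := fun e => hv (e ▸ hu)
    rw [Function.update_of_ne h2]
    exact h.off u hu
  · rw [Function.update_of_ne (hx k)]
    exact h.rt k
  · have h1 : u ∈ P f (Sum.inr j) := h.sub j hu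
    have h2 : u ≠ v := fun e => hM j (e ▸ h1)
    show Function.update f v c u = some (Sum.inr j)
    rw [Function.update_of_ne h2]
    exact h1

theorem touch_iff {X Y : Set V} {u : V} (hu : u ∈ X) (h : Touch G {u} Y) : Touch G X Y :=
  touch_mono h (Set.singleton_subset_iff.2 hu) subset_rfl

/-- `h` is the only contact of `X` -/
def IsHub (G : SimpleGraph V) (X : Set V) (M : Fin 2 → Set V) (h : V) : Prop :=
  h ∈ X ∧ ∀ u ∈ X, ∀ j, Touch G {u} (M j) → u = h

section

variable [Fintype V] {B : Set V} {M : Fin 2 → Set V} {x : Fin 4 → V}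
  {f : V → Option (Fin 3 ⊕ Fin 2)}

/-- in a minimal configuration, a free vertex does not touch the `M j` -/
theorem free (hf : Cfg G B M x f) (hmin : ∀ f', Cfg G B M x f' → ¬ wt w5 f' < wt w5 f) {v : V}
    (hv : f v = none) (hB : v ∉ B) (j : Fin 2) : ¬ Touch G (P f (Sum.inr j)) {v} := by
  classical
  intro ht
  refine hmin _ (hf.upd (c := some (Sum.inr j)) hB (fun k e => ?_) (fun j' h => ?_)
    (hf.md.grow hv ht)) (wt_lt _ _ ?_)
  · have := hf.rt k
    rw [e, hv] at this
    exact absurd this (by simp)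
  · have h' : f v = some (Sum.inr j') := h
    rw [hv] at h'
    exact absurd h' (by simp)
  · rw [hv]
    simp [w5]

/-- in a minimal configuration, a vertex which is neither a root nor a cut vertex is a hub -/
theorem hub_of (hf : Cfg G B M x f) (hmin : ∀ f', Cfg G B M x f' → ¬ wt w5 f' < wt w5 f)
    {i : Fin 3} {v : V} (hv : f v = some (Sum.inl i)) (hx : ∀ k, x k ≠ v)
    (h2 : ∀ r, P f (Sum.inl i) ≠ {r}) (hc : Cn G (P f (Sum.inl i) \ {v})) :
    IsHub G (P f (Sum.inl i)) (fun j => P f (Sum.inr j)) v := by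
  classical
  have hvB : v ∉ B := fun h => by
    rw [hf.off v h] at hv
    exact absurd hv (by simp)
  have hvM : ∀ j, v ∉ P f (Sum.inr j) := fun j h => by
    have h' : f v = some (Sum.inr j) := h
    rw [hv] at h'
    exact absurd h' (by simp)
  have key : ∀ j, ¬ Touch G (P f (Sum.inl i) \ {v}) (P f (Sum.inr j)) := by
    intro j hj
    by_cases hj' : ∀ j', Touch G (P f (Sum.inl i) \ {v}) (P f (Sum.inr j'))
    · refine hmin _ (hf.upd (c := none) hvB hx hvM (hf.md.mv r5_symm r5_irr hv h2 hc (by simp)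
        (by simp) ?_)) (wt_lt _ _ ?_)
      · rintro (o | o) ho -
        · exact absurd ho id
        · exact hj' o
      · rw [hv]
        simp [w5]
    · push Not at hj'
      obtain ⟨j', hj'⟩ := hj'
      have hvj : Touch G {v} (P f (Sum.inr j')) := by
        obtain ⟨a, ha, b, hb, e⟩ := hf.md.ad (Sum.inl i) (Sum.inr j') trivial
        have hav : a = v := by
          by_contra h
          exact hj' ⟨a, ⟨ha, h⟩, b, hb, e⟩
        exact ⟨a, hav, b, hb, e⟩
      refine hmin _ (hf.upd (c := some (Sum.inr j')) hvB hx hvM (hf.md.mv r5_symm r5_irr hv h2 hc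
        (by simp) (fun k hk => (Option.some.inj hk) ▸ hvj) ?_)) (wt_lt _ _ ?_)
      · rintro (o | o) ho hne
        · exact absurd ho id
        · have hjj : ∀ j j' o : Fin 2, o ≠ j' → j ≠ j' → o = j := by decide
          have h1 : o ≠ j' := fun e => hne (by rw [e])
          have h3 : j ≠ j' := fun e => hj' (e ▸ hj)
          rw [hjj j j' o h1 h3]
          exact hj
      · rw [hv]
        simp [w5]
  refine ⟨hv, fun u hu j hj => ?_⟩
  by_contra hne
  exact key j (touch_iff ⟨hu, hne⟩ hj)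

/-- a part with one root has a hub -/
theorem hub_one (hf : Cfg G B M x f) (hmin : ∀ f', Cfg G B M x f' → ¬ wt w5 f' < wt w5 f)
    {i : Fin 3} {k : Fin 4} (hk : ∀ k', w4 k' = i → k' = k) (hi : w4 k = i) :
    ∃ h, IsHub G (P f (Sum.inl i)) (fun j => P f (Sum.inr j)) h := by
  have hr : x k ∈ P f (Sum.inl i) := by
    rw [← hi]
    exact hf.rt k
  by_cases h2 : P f (Sum.inl i) = {x k}
  · refine ⟨x k, hr, fun u hu j _ => ?_⟩
    rw [h2] at hu
    exact hu
  · obtain ⟨v, hv, hvk, hc⟩ := exists_noncut (hf.md.cn _) hr h2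
    refine ⟨v, hub_of hf hmin hv (fun k' e => ?_) (fun r e => ?_) hc⟩
    · have h3 := hf.rt k'
      have hv' : f v = some (Sum.inl i) := hv
      rw [e, hv'] at h3
      have h4 : i = w4 k' := Sum.inl.inj (Option.some.inj h3)
      rw [hk k' h4.symm] at e
      exact hvk e.symm
    · rw [e] at hr hv
      exact hvk ((Set.mem_singleton_iff.1 hv).trans (Set.mem_singleton_iff.1 hr).symm)

/-- the part with two roots: a hub or a cross -/
theorem hub_two (hf : Cfg G B M x f) (hmin : ∀ f', Cfg G B M x f' → ¬ wt w5 f' < wt w5 f)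
    (h01 : x 0 ≠ x 1) :
    (∃ h, IsHub G (P f (Sum.inl 0)) (fun j => P f (Sum.inr j)) h) ∨
    ∃ (X : Set V) (a b : Fin 2), a ≠ b ∧ X ⊆ P f (Sum.inl 0) ∧ x 0 ∈ X ∧ x 1 ∉ X ∧ Cn G X ∧
      Cn G (P f (Sum.inl 0) \ X) ∧ Touch G X (P f (Sum.inr a)) ∧
      Touch G (P f (Sum.inl 0) \ X) (P f (Sum.inr b)) := by
  by_contra hcon
  push Not at hcon
  obtain ⟨hnh, hnc⟩ := hcon
  obtain ⟨N, hN⟩ : ∃ N, N = P f (Sum.inl 0) := ⟨_, rfl⟩
  have h0 : x 0 ∈ N := by
    rw [hN]
    exact hf.rt 0
  have h1 : x 1 ∈ N := by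
    rw [hN]
    exact hf.rt 1
  have hcN : Cn G N := by
    rw [hN]
    exact hf.md.cn _
  have h2 : ∀ r, N ≠ {r} := by
    rintro r rfl
    exact h01 ((Set.mem_singleton_iff.1 h0).trans (Set.mem_singleton_iff.1 h1).symm)
  -- only the roots can be taken away
  have hcut : ∀ v ∈ N, Cn G (N \ {v}) → v = x 0 ∨ v = x 1 := by
    intro v hv hc
    by_contra h
    push Not at h
    subst hN
    refine hnh v (hub_of hf hmin hv (fun k e => ?_) h2 hc)
    have h3 := hf.rt k
    have hv' : f v = some (Sum.inl 0) := hv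
    rw [e, hv'] at h3
    have h4 : (0 : Fin 3) = w4 k := Sum.inl.inj (Option.some.inj h3)
    have h5 : ∀ k : Fin 4, (0 : Fin 3) = w4 k → k = 0 ∨ k = 1 := by decide
    rcases h5 k h4 with rfl | rfl
    · exact h.1 e.symm
    · exact h.2 e.symm
  have hc1 : Cn G (N \ {x 1}) := by
    obtain ⟨v, hv, hv0, hc⟩ := exists_noncut hcN h0 (h2 _)
    rcases hcut v hv hc with h | h
    · exact absurd h hv0
    · rw [h] at hc
      exact hc
  -- the contacts of `N`
  have hub : ∀ h ∈ N, ∃ u ∈ N, u ≠ h ∧ ∃ j, Touch G {u} (P f (Sum.inr j)) := by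
    intro h hh
    by_contra hcon
    push Not at hcon
    subst hN
    exact hnh h ⟨hh, fun u hu j hj => by
      by_contra hne
      exact hcon u hu hne j hj⟩
  obtain ⟨X, ⟨hXN, hX0, hX1, hX, hY, j0, hXt⟩, hXmin⟩ :=
    (Set.toFinite {X : Set V | X ⊆ N ∧ x 0 ∈ X ∧ x 1 ∉ X ∧ Cn G X ∧ Cn G (N \ X) ∧
      ∃ j, Touch G X (P f (Sum.inr j))}).exists_minimalFor id _ ⟨N \ {x 1}, Set.sdiff_subset,
        ⟨h0, h01⟩, fun h => h.2 rfl, hc1, by
          have e : N \ (N \ {x 1}) = {x 1} := by
            ext u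
            constructor
            · rintro ⟨hu, hu'⟩
              by_contra h
              exact hu' ⟨hu, h⟩
            · rintro rfl
              exact ⟨h1, fun h => h.2 rfl⟩
          rw [e]
          exact Cn.singleton _, by
          obtain ⟨u, hu, hu1, j, hj⟩ := hub (x 1) h1
          exact ⟨j, touch_iff ⟨hu, hu1⟩ hj⟩⟩
  -- the contacts of `X`
  have hXu : ∃ u₀ ∈ X, ∀ u ∈ X, ∀ j, Touch G {u} (P f (Sum.inr j)) → u = u₀ := by
    by_cases hX2 : X = {x 0}
    · refine ⟨x 0, hX0, fun u hu _ _ => ?_⟩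
      rw [hX2] at hu
      exact hu
    · obtain ⟨v, hv, hv0, hc⟩ := exists_noncut hX hX0 hX2
      refine ⟨v, hv, fun u hu j hj => ?_⟩
      by_contra hne
      have e : N \ (X \ {v}) = (N \ X) ∪ {v} := by
        ext z
        constructor
        · rintro ⟨hz, hz'⟩
          by_cases hzX : z ∈ X
          · right
            by_contra h
            exact hz' ⟨hzX, h⟩
          · exact Or.inl ⟨hz, hzX⟩
        · rintro (⟨hz, hz'⟩ | rfl)
          · exact ⟨hz, fun h => hz' h.1⟩
          · exact ⟨hXN hv, fun h => h.2 rfl⟩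
      by_cases hvY : Touch G (N \ X) {v}
      · have h3 : X ⊆ X \ {v} := hXmin ⟨Set.sdiff_subset.trans hXN, ⟨hX0, fun h => hv0 h.symm⟩,
          fun h => hX1 h.1, hc, by
            rw [e]
            exact cn_union hY (Cn.singleton v) hvY, j, touch_iff ⟨hu, hne⟩ hj⟩ Set.sdiff_subset
        exact (h3 hv).2 rfl
      · -- then `v` is not a cut vertex of `N`
        have h3 : Touch G (X \ {v}) (N \ X) := by
          obtain ⟨p, hp, q, hq, hpq⟩ := hcN.2 X hXN ⟨_, hX0⟩ (by
            rintro rfl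
            exact hX1 h1)
          refine ⟨p, ⟨hp, fun h => hvY ⟨q, hq, p, h, hpq.symm⟩⟩, q, hq, hpq⟩
        have e' : N \ {v} = (X \ {v}) ∪ (N \ X) := by
          ext z
          constructor
          · rintro ⟨hz, hz'⟩
            by_cases hzX : z ∈ X
            · exact Or.inl ⟨hzX, hz'⟩
            · exact Or.inr ⟨hz, hzX⟩
          · rintro (⟨hz, hz'⟩ | ⟨hz, hz'⟩)
            · exact ⟨hXN hz, hz'⟩
            · exact ⟨hz, fun h => hz' ((Set.mem_singleton_iff.1 h) ▸ hv)⟩
        rcases hcut v (hXN hv) (by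
          rw [e']
          exact cn_union hc hY h3) with h | h
        · exact hv0 h
        · exact hX1 (h ▸ hv)
  obtain ⟨u₀, hu₀, hXu⟩ := hXu
  -- the other side has a contact
  obtain ⟨j1, hYt⟩ : ∃ j, Touch G (N \ X) (P f (Sum.inr j)) := by
    obtain ⟨u, hu, hne, j, hj⟩ := hub u₀ (hXN hu₀)
    exact ⟨j, touch_iff ⟨hu, fun h => hne (hXu u h j hj)⟩ hj⟩
  have hall : ∀ a b, a ≠ b → Touch G X (P f (Sum.inr a)) →
      ¬ Touch G (N \ X) (P f (Sum.inr b)) := by
    intro a b hab h3 h4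
    subst hN
    exact hnc X a b hab hXN hX0 hX1 hX hY h3 h4
  have h2' : ∀ a b : Fin 2, a ≠ b → ∀ c, c = a ∨ c = b := by decide
  have hj : j0 = j1 := by
    by_contra h
    exact hall j0 j1 h hXt hYt
  subst hj
  obtain ⟨j2, hj2⟩ : ∃ j : Fin 2, j0 ≠ j := by
    revert j0
    intro j0 _ _
    have : ∀ j : Fin 2, ∃ j', j ≠ j' := by decide
    exact this j0
  obtain ⟨p, hp, q, hq, hpq⟩ := hf.md.ad (Sum.inl 0) (Sum.inr j2) trivial
  have hp' : p ∈ N := by
    rw [hN]
    exact hp
  by_cases hpX : p ∈ X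
  · exact hall j2 j0 hj2.symm ⟨p, hpX, q, hq, hpq⟩ hYt
  · exact hall j0 j2 hj2 hXt ⟨p, ⟨hp', hpX⟩, q, hq, hpq⟩

end

/-- **(X1)** the cross lemma -/
theorem cross [Finite V] (B : Set V) (N : Fin 3 → Set V) (M : Fin 2 → Set V) (x : Fin 4 → V)
    (cN : ∀ i, Cn G (N i)) (cM : ∀ j, Cn G (M j)) (dN : ∀ i i', i ≠ i' → Disjoint (N i) (N i'))
    (dM : ∀ j j', j ≠ j' → Disjoint (M j) (M j')) (dNM : ∀ i j, Disjoint (N i) (M j))
    (oN : ∀ i, Disjoint (N i) B) (oM : ∀ j, Disjoint (M j) B)
    (t : ∀ i j, Touch G (N i) (M j)) (h0 : x 0 ∈ N 0) (h1 : x 1 ∈ N 0) (h2 : x 2 ∈ N 1)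
    (h3 : x 3 ∈ N 2) (h01 : x 0 ≠ x 1) :
    (∃ P Q : Set V, Cn G P ∧ Cn G Q ∧ Disjoint P Q ∧ Disjoint P B ∧ Disjoint Q B ∧ x 0 ∈ P ∧
      x 2 ∈ P ∧ x 1 ∈ Q ∧ x 3 ∈ Q) ∨
    ∃ (D : Set V) (S : Finset V), S.card ≤ 3 ∧ M 0 ⊆ D ∧ M 1 ⊆ D ∧ Disjoint D B ∧
      (∀ k, x k ∉ D) ∧ (∀ s ∈ S, s ∉ B ∧ s ∉ D) ∧
      ∀ u ∈ D, ∀ v, G.Adj u v → v ∈ D ∨ v ∈ S ∨ v ∈ B := by
  classical
  have := Fintype.ofFinite V
  -- the first configuration
  let W : Fin 3 ⊕ Fin 2 → Set V := Sum.elim N M
  have dW : ∀ a b, a ≠ b → Disjoint (W a) (W b) := by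
    rintro (a | a) (b | b) hab
    · exact dN a b (fun e => hab (by rw [e]))
    · exact dNM a b
    · exact (dNM b a).symm
    · exact dM a b (fun e => hab (by rw [e]))
  let f₀ : V → Option (Fin 3 ⊕ Fin 2) := fun v => if h : ∃ a, v ∈ W a then some h.choose else none
  have hval : ∀ a v, v ∈ W a → f₀ v = some a := by
    intro a v hv
    have h : ∃ a, v ∈ W a := ⟨a, hv⟩
    show (if h : ∃ a, v ∈ W a then some h.choose else none) = some a
    rw [dif_pos h]
    congr 1
    by_contra hne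
    exact Set.disjoint_left.1 (dW _ _ hne) h.choose_spec hv
  have hP : ∀ a, P f₀ a = W a := by
    intro a
    ext v
    constructor
    · intro hv
      have hv' : (if h : ∃ a, v ∈ W a then some h.choose else none) = some a := hv
      by_cases h : ∃ a, v ∈ W a
      · rw [dif_pos h] at hv'
        have := h.choose_spec
        rwa [Option.some.inj hv'] at this
      · rw [dif_neg h] at hv'
        exact absurd hv' (by simp)
    · exact hval a v
  have hf₀ : Cfg G B M x f₀ := by
    refine ⟨⟨?_, ?_⟩, ?_, ?_, ?_⟩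
    · rintro (i | j)
      · rw [hP]
        exact cN i
      · rw [hP]
        exact cM j
    · rintro (i | i) (j | j) h
      · exact absurd h id
      · rw [hP, hP]
        exact t i j
      · rw [hP, hP]
        exact touch_symm (t j i)
      · exact absurd h id
    · intro v hv
      show (if h : ∃ a, v ∈ W a then some h.choose else none) = none
      rw [dif_neg]
      rintro ⟨a | a, ha⟩
      · exact Set.disjoint_left.1 (oN a) ha hv
      · exact Set.disjoint_left.1 (oM a) ha hv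
    · intro k
      apply hval
      fin_cases k
      · exact h0
      · exact h1
      · exact h2
      · exact h3
    · intro j v hv
      exact hval (Sum.inr j) v hv
  obtain ⟨f, hf, hmin'⟩ := WellFounded.has_min (measure (wt w5)).wf {f | Cfg G B M x f} ⟨f₀, hf₀⟩
  have hmin : ∀ f', Cfg G B M x f' → ¬ wt w5 f' < wt w5 f := fun f' hf' => hmin' f' hf'
  have hoff : ∀ a, Disjoint (P f a) B := by
    intro a
    rw [Set.disjoint_left]
    intro v hv hB
    have hv' : f v = some a := hv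
    rw [hf.off v hB] at hv'
    exact absurd hv' (by simp)
  obtain ⟨a1, ha1⟩ := hub_one hf hmin (i := 1) (k := 2) (by decide) rfl
  obtain ⟨a2, ha2⟩ := hub_one hf hmin (i := 2) (k := 3) (by decide) rfl
  rcases hub_two hf hmin h01 with ⟨a0, ha0⟩ | ⟨X, a, b, hab, hXN, hX0, hX1, hX, hY, hXa, hYb⟩
  · right
    refine ⟨P f (Sum.inr 0) ∪ P f (Sum.inr 1), {a0, a1, a2}, Finset.card_le_three,
      (hf.sub 0).trans Set.subset_union_left, (hf.sub 1).trans Set.subset_union_right,
      Set.disjoint_union_left.2 ⟨hoff _, hoff _⟩, ?_, ?_, ?_⟩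
    · intro k hk
      have h4 := hf.rt k
      rcases hk with hk | hk
      · have hk' : f (x k) = some (Sum.inr 0) := hk
        rw [h4] at hk'
        exact absurd hk' (by simp)
      · have hk' : f (x k) = some (Sum.inr 1) := hk
        rw [h4] at hk'
        exact absurd hk' (by simp)
    · have key : ∀ i s, s ∈ P f (Sum.inl i) →
          s ∉ B ∧ s ∉ P f (Sum.inr 0) ∪ P f (Sum.inr 1) := by
        intro i s hs
        refine ⟨fun h => Set.disjoint_left.1 (hoff _) hs h, ?_⟩
        rintro (h | h)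
        · exact Set.disjoint_left.1 (P_disj (by simp)) hs h
        · exact Set.disjoint_left.1 (P_disj (by simp)) hs h
      intro s hs
      rw [Finset.mem_insert, Finset.mem_insert, Finset.mem_singleton] at hs
      rcases hs with rfl | rfl | rfl
      · exact key 0 _ ha0.1
      · exact key 1 _ ha1.1
      · exact key 2 _ ha2.1
    · have step : ∀ j, ∀ u ∈ P f (Sum.inr j), ∀ v, G.Adj u v →
          v ∈ P f (Sum.inr 0) ∪ P f (Sum.inr 1) ∨ v ∈ ({a0, a1, a2} : Finset V) ∨ v ∈ B := by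
        intro j u hu v huv
        rcases hv : f v with _ | i | j'
        · by_cases hB : v ∈ B
          · exact Or.inr (Or.inr hB)
          · exact absurd ⟨u, hu, v, rfl, huv⟩ (free hf hmin hv hB j)
        · right
          left
          have ht : Touch G {v} (P f (Sum.inr j)) := ⟨v, rfl, u, hu, huv.symm⟩
          have hi : ∀ i : Fin 3, i = 0 ∨ i = 1 ∨ i = 2 := by decide
          rw [Finset.mem_insert, Finset.mem_insert, Finset.mem_singleton]
          rcases hi i with rfl | rfl | rfl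
          · exact Or.inl (ha0.2 v hv j ht)
          · exact Or.inr (Or.inl (ha1.2 v hv j ht))
          · exact Or.inr (Or.inr (ha2.2 v hv j ht))
        · left
          have hj : ∀ j : Fin 2, j = 0 ∨ j = 1 := by decide
          rcases hj j' with rfl | rfl
          · exact Or.inl hv
          · exact Or.inr hv
      rintro u (hu | hu) v huv
      · exact step 0 u hu v huv
      · exact step 1 u hu v huv
  · left
    have hd : ∀ c d : Fin 3 ⊕ Fin 2, c ≠ d → ∀ v, v ∈ P f c → v ∈ P f d → False :=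
      fun c d hcd v h h' => Set.disjoint_left.1 (P_disj hcd) h h'
    refine ⟨X ∪ P f (Sum.inr a) ∪ P f (Sum.inl 1), (P f (Sum.inl 0) \ X) ∪ P f (Sum.inr b) ∪
      P f (Sum.inl 2), ?_, ?_, ?_, ?_, ?_, ?_, ?_, ?_, ?_⟩
    · refine cn_union (cn_union hX (hf.md.cn _) hXa) (hf.md.cn _) ?_
      exact touch_mono (hf.md.ad (Sum.inr a) (Sum.inl 1) trivial) Set.subset_union_right subset_rfl
    · refine cn_union (cn_union hY (hf.md.cn _) hYb) (hf.md.cn _) ?_
      exact touch_mono (hf.md.ad (Sum.inr b) (Sum.inl 2) trivial) Set.subset_union_right subset_rfl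
    · rw [Set.disjoint_left]
      rintro v ((h | h) | h) ((h' | h') | h')
      · exact h'.2 h
      · exact hd _ _ (by simp) v (hXN h) h'
      · exact hd _ _ (by simp) v (hXN h) h'
      · exact hd _ _ (by simp) v h h'.1
      · exact hd _ _ (by simpa using hab) v h h'
      · exact hd _ _ (by simp) v h h'
      · exact hd _ _ (by simp) v h h'.1
      · exact hd _ _ (by simp) v h h'
      · exact hd _ _ (by simp) v h h'
    · rw [Set.disjoint_union_left, Set.disjoint_union_left]
      exact ⟨⟨(hoff _).mono_left hXN, hoff _⟩, hoff _⟩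
    · rw [Set.disjoint_union_left, Set.disjoint_union_left]
      exact ⟨⟨(hoff _).mono_left Set.sdiff_subset, hoff _⟩, hoff _⟩
    · exact Or.inl (Or.inl hX0)
    · exact Or.inr (hf.rt 2)
    · exact Or.inl (Or.inl ⟨hf.rt 1, hX1⟩)
    · exact Or.inr (hf.rt 3)

end Vale.Agent.P235.XC.H749
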